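import Vale.Agent.P181.H382.H605.LowN
import Vale.Agent.P181.H382.H755.Low
import Vale.Agent.P181.H382.H755.CoreF
import Vale.Agent.P181.BL.H650.One
import Vale.Agent.P181.BL.H118.BordR
import Vale.Agent.P181.BL.H118.MinR

set_option autoImplicit false

/-!
# P181, LL: L1, L5, L6 without hypotheses
-/

namespace Vale.Agent.P181.H382.H605

/-- **(L1)** without hypotheses. -/
theorem lowN_closed : LowN := lowN (BL.H650.oneR BL.H118.bordR BL.H118.minR)

/-- **(L5)** without hypotheses. -/
theorem lowM_closed : LowM := H755.lowM_of lowN_closed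

/-- **(L6)** without hypotheses. -/
theorem coreN_closed : CoreN := H755.coreN_of lowM_closed

end Vale.Agent.P181.H382.H605
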