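import Vale.Agent.P181.H382.Defs
import Vale.Agent.P181.BL.H540.LiftR
import Vale.Agent.P181.SZR5b.Mark

set_option autoImplicit false

/-!
# P181, LL (L1): the lossless lift
-/

open MvPolynomial

namespace Vale.Agent.P181.H382.H605

open Vale.Agent.P181.T4 (HW rowOp)
open Vale.Agent.P181.TL (KK)
open Vale.Agent.P181.BL (fr lab lo ap OneR)
open Vale.Agent.P181.BL.H540 (fr_inl fr_inr fL fO lab_eq coeff_lab_ne coeff_lab ev pt_fL fO_inj
  fL_notin fO_notin ev_fL ev_fO)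
open Vale.Agent.P181.SZR5b (rc rc_inj rowOp_rename dl dl_apply)

section frame

variable {n r : ℕ} {ι η : Type} [Fintype ι] [Fintype η]

/-- The letters of an exponent. -/
noncomputable def lt (v : Fin n × (ι ⊕ η) →₀ ℕ) : Fin n × ι →₀ ℕ :=
  Finsupp.equivFunOnFinite.symm fun q => v (q.1, Sum.inl q.2)

omit [Fintype η] in
lemma lt_apply (v : Fin n × (ι ⊕ η) →₀ ℕ) (i : Fin n) (j : ι) :
    lt v (i, j) = v (i, Sum.inl j) := rfl

open scoped Classical in
lemma fr_monomial (g : η → Fin r) (v : Fin n × (ι ⊕ η) →₀ ℕ) (c : ℂ) :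
    fr n g (monomial v c) =
      if ∀ (i : Fin n) (h : η), (i : ℕ) ≠ (g h : ℕ) → v (i, Sum.inr h) = 0 then monomial (lt v) c else 0 := by
  have h0 : fr n g (monomial v c) = C c * ((∏ i : Fin n, ∏ j : ι,
      (X (i, j) : MvPolynomial (Fin n × ι) ℂ) ^ v (i, Sum.inl j)) *
      ∏ i : Fin n, ∏ h : η, (if (i : ℕ) = (g h : ℕ) then (1 : MvPolynomial (Fin n × ι) ℂ)
        else 0) ^ v (i, Sum.inr h)) := by
    rw [monomial_eq, Finsupp.prod_fintype _ _ (fun _ => pow_zero _), map_mul, map_prod,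
      Fintype.prod_prod_type, ← Finset.prod_mul_distrib]
    congr 1
    · exact AlgHom.commutes _ _
    · refine Finset.prod_congr rfl fun i _ => ?_
      rw [Fintype.prod_sum_type]
      congr 1
      · refine Finset.prod_congr rfl fun j _ => ?_
        rw [map_pow, fr_inl]
      · refine Finset.prod_congr rfl fun h _ => ?_
        rw [map_pow, fr_inr]
  have h1 : C c * (∏ i : Fin n, ∏ j : ι,
      (X (i, j) : MvPolynomial (Fin n × ι) ℂ) ^ v (i, Sum.inl j)) = monomial (lt v) c := by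
    rw [monomial_eq, Finsupp.prod_fintype _ _ (fun _ => pow_zero _), Fintype.prod_prod_type]
    rfl
  rw [h0, ← mul_assoc, h1]
  split_ifs with h
  · rw [Finset.prod_eq_one, mul_one]
    intro i _
    refine Finset.prod_eq_one fun x _ => ?_
    by_cases hi : (i : ℕ) = (g x : ℕ)
    · rw [if_pos hi, one_pow]
    · rw [h i x hi, pow_zero]
  · push Not at h
    obtain ⟨i, x, hi, hv⟩ := h
    rw [Finset.prod_eq_zero (Finset.mem_univ i), mul_zero]
    rw [Finset.prod_eq_zero (Finset.mem_univ x)]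
    rw [if_neg hi, zero_pow hv]

/-- The coefficients of the frame specialization. -/
lemma coeff_fr (g : η → Fin r) (p : η → ℕ) (G : MvPolynomial (Fin n × (ι ⊕ η)) ℂ)
    (hG : ∀ v, coeff v G ≠ 0 → ∀ h, ∑ i, v (i, Sum.inr h) = p h) (U : Fin n × (ι ⊕ η) →₀ ℕ)
    (hU : ∀ (i : Fin n) (h : η), U (i, Sum.inr h) = if (i : ℕ) = (g h : ℕ) then p h else 0) :
    coeff (lt U) (fr n g G) = coeff U G := by
  classical
  have hU0 : ∀ (i : Fin n) (h : η), (i : ℕ) ≠ (g h : ℕ) → U (i, Sum.inr h) = 0 := by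
    intro i h hi
    rw [hU, if_neg hi]
  conv_lhs => rw [G.as_sum]
  rw [map_sum, coeff_sum, Finset.sum_eq_single U]
  · rw [fr_monomial, if_pos hU0, coeff_monomial, if_pos rfl]
  · intro v hv hne
    rw [fr_monomial]
    split_ifs with h
    · rw [coeff_monomial, if_neg]
      intro h2
      apply hne
      ext ⟨i, x⟩
      rcases x with j | y
      · exact DFunLike.congr_fun h2 (i, j)
      · by_cases hi : (i : ℕ) = (g y : ℕ)
        · rw [hU, if_pos hi, ← hG v (mem_support_iff.1 hv) y, Finset.sum_eq_single i]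
          · intro i' _ hi'
            exact h i' y (fun h3 => hi' (Fin.ext (h3.trans hi.symm)))
          · intro h3
            exact absurd (Finset.mem_univ _) h3
        · rw [h i y hi, hU0 i y hi]
    · exact coeff_zero _
  · intro hv
    rw [notMem_support_iff.1 hv, monomial_zero, map_zero, coeff_zero]

end frame

section perm

variable {m : ℕ} {σ : Type} [Fintype σ]

/-- The exponents after a permutation of the columns. -/
noncomputable def pw (π : Equiv.Perm σ) (W : Fin m × σ →₀ ℕ) : Fin m × σ →₀ ℕ :=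
  Finsupp.equivFunOnFinite.symm fun q => W (q.1, π q.2)

lemma pw_apply (π : Equiv.Perm σ) (W : Fin m × σ →₀ ℕ) (i : Fin m) (x : σ) :
    pw π W (i, x) = W (i, π x) := rfl

lemma coeff_rc (π : Equiv.Perm σ) (H : MvPolynomial (Fin m × σ) ℂ) (W : Fin m × σ →₀ ℕ) :
    coeff W (rename (rc m π) H) = coeff (pw π W) H := by
  have h : W = (pw π W).mapDomain (rc m π) := by
    ext ⟨i, x⟩
    have h1 := Finsupp.mapDomain_apply (rc_inj (n := m) π.injective) (pw π W) (i, π.symm x)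
    have h2 : rc m π (i, π.symm x) = (i, x) := by
      rw [rc, Equiv.apply_symm_apply]
    rw [h2, pw_apply, Equiv.apply_symm_apply] at h1
    exact h1.symm
  conv_lhs => rw [h]
  exact coeff_rename_mapDomain _ (rc_inj π.injective) H (pw π W)

lemma sym_mem [DecidableEq σ] {e : ℕ} {mu : Fin m → ℕ} {H : MvPolynomial (Fin m × σ) ℂ}
    (ha : ∀ v, coeff v H ≠ 0 → ∀ i, ∑ j, v (i, j) = mu i)
    (hb : ∀ v, coeff v H ≠ 0 → ∀ j, ∑ i, v (i, j) = e)
    (hc : ∀ s i : Fin m, s < i → 2 ≤ (i : ℕ) → rowOp s i H = 0) :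
    ∑ π : Equiv.Perm σ, rename (rc m π) H ∈ NN m σ e mu := by
  have hne : ∀ v, coeff v (∑ π : Equiv.Perm σ, rename (rc m π) H) ≠ 0 →
      ∃ π : Equiv.Perm σ, coeff (pw π v) H ≠ 0 := by
    intro v hv
    rw [coeff_sum] at hv
    obtain ⟨π, _, hπ⟩ := Finset.exists_ne_zero_of_sum_ne_zero hv
    rw [coeff_rc] at hπ
    exact ⟨π, hπ⟩
  refine ⟨fun v hv i => ?_, fun v hv j => ?_, fun s i hsi hi => ?_, fun π' => ?_⟩
  · obtain ⟨π, hπ⟩ := hne v hv
    rw [← ha _ hπ i]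
    exact (Equiv.sum_comp π fun x => v (i, x)).symm
  · obtain ⟨π, hπ⟩ := hne v hv
    rw [← hb _ hπ (π.symm j)]
    refine Finset.sum_congr rfl fun i _ => ?_
    rw [pw_apply, Equiv.apply_symm_apply]
  · rw [map_sum]
    refine Finset.sum_eq_zero fun π _ => ?_
    rw [rowOp_rename, hc s i hsi hi, map_zero]
  · rw [map_sum]
    rw [← Equiv.sum_comp (Equiv.mulLeft π') fun π : Equiv.Perm σ => rename (rc m π) H]
    refine Finset.sum_congr rfl fun π _ => ?_
    rw [rename_rename]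
    rfl

lemma rowOp_base (s i : Fin m) (G : MvPolynomial (Fin m × σ) ℂ) (B : Fin m × σ →₀ ℕ)
    (hG : rowOp s i G = 0) (hB : ∀ x, B (i, x) = 0) : rowOp s i (G * monomial B 1) = 0 := by
  have h1 : rowOp s i (monomial B (1 : ℂ)) = 0 := by
    rw [rowOp, LinearMap.sum_apply]
    refine Finset.sum_eq_zero fun j _ => ?_
    show X (s, j) * pderiv (i, j) (monomial B (1 : ℂ)) = 0
    rw [pderiv_monomial, hB, Nat.cast_zero, mul_zero, monomial_zero, mul_zero]
  rw [← dl_apply] at hG h1 ⊢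
  rw [Derivation.leibniz, hG, h1, smul_zero, smul_zero, add_zero]

/-- Finite dimension. -/
lemma finiteDimensional_NN (e : ℕ) (mu : Fin m → ℕ) : FiniteDimensional ℂ (NN m σ e mu) := by
  classical
  have hfin : {v : Fin m × σ →₀ ℕ | ∀ q, v q ≤ e}.Finite := by
    refine (Set.finite_Icc (0 : Fin m × σ →₀ ℕ)
      (Finsupp.equivFunOnFinite.symm fun _ => e)).subset ?_
    intro v hv
    exact ⟨fun q => Nat.zero_le _, fun q => hv q⟩
  have : Finite {v : Fin m × σ →₀ ℕ // ∀ q, v q ≤ e} := hfin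
  let Φ : NN m σ e mu →ₗ[ℂ] ({v : Fin m × σ →₀ ℕ // ∀ q, v q ≤ e} → ℂ) :=
    LinearMap.pi fun v => (lcoeff ℂ v.1).comp (NN m σ e mu).subtype
  refine FiniteDimensional.of_injective Φ ?_
  rw [← LinearMap.ker_eq_bot, LinearMap.ker_eq_bot']
  intro f hf
  apply Subtype.ext
  ext v
  rw [ZeroMemClass.coe_zero, coeff_zero]
  by_contra hne
  have h1 : ∀ q, v q ≤ e := by
    rintro ⟨i, j⟩
    rw [← f.2.2.1 v hne j]
    exact Finset.single_le_sum (f := fun i => v (i, j)) (fun _ _ => Nat.zero_le _)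
      (Finset.mem_univ i)
  have h2 : Φ f ⟨v, h1⟩ = 0 := by rw [hf]; rfl
  exact hne h2

end perm

section exps

variable {k : ℕ} {σ : Type} [Fintype σ]

/-- An exponent by its rows. -/
noncomputable def mk (f0 f1 : σ → ℕ) (ft : Fin (k + 1) → σ → ℕ) : Fin (k + 3) × σ →₀ ℕ :=
  Finsupp.equivFunOnFinite.symm fun q =>
    (Fin.cons (f0 q.2) (Fin.cons (f1 q.2) fun i => ft i q.2) : Fin (k + 3) → ℕ) q.1

lemma mk_0 (f0 f1 : σ → ℕ) (ft : Fin (k + 1) → σ → ℕ) (x : σ) : mk f0 f1 ft (0, x) = f0 x := rfl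

lemma mk_1 (f0 f1 : σ → ℕ) (ft : Fin (k + 1) → σ → ℕ) (x : σ) :
    mk f0 f1 ft (Fin.succ 0, x) = f1 x := rfl

lemma mk_t (f0 f1 : σ → ℕ) (ft : Fin (k + 1) → σ → ℕ) (i : Fin (k + 1)) (x : σ) :
    mk f0 f1 ft (i.succ.succ, x) = ft i x := rfl

/-- The rows `≥ 2`. -/
def sh (k : ℕ) {ι : Type} (q : Fin (k + 1) × ι) : Fin (k + 3) × ι := (q.1.succ.succ, q.2)

lemma sh_inj {ι : Type} : Function.Injective (sh k : Fin (k + 1) × ι → Fin (k + 3) × ι) := by
  rintro ⟨i, x⟩ ⟨j, y⟩ h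
  have h1 : i.succ.succ = j.succ.succ := congrArg Prod.fst h
  have h2 : x = y := congrArg Prod.snd h
  rw [Fin.succ_injective _ (Fin.succ_injective _ h1), h2]

lemma sh_ne0 {ι : Type} (j : ι) : (0, j) ∉ Set.range (sh k : Fin (k + 1) × ι → Fin (k + 3) × ι) := by
  rintro ⟨q, hq⟩
  exact Fin.succ_ne_zero q.1.succ (congrArg Prod.fst hq)

lemma sh_ne1 {ι : Type} (j : ι) :
    (Fin.succ 0, j) ∉ Set.range (sh k : Fin (k + 1) × ι → Fin (k + 3) × ι) := by
  rintro ⟨q, hq⟩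
  exact Fin.succ_ne_zero q.1 (Fin.succ_injective _ (congrArg Prod.fst hq))

/-- A value of the lift. -/
lemma coeff_lift {ι η : Type} [Fintype ι] [Fintype η] (g : η → Fin 2) (p : η → ℕ) (m : ℕ)
    (G : MvPolynomial (Fin (k + 3) × (ι ⊕ η)) ℂ) (F : MvPolynomial (Fin (k + 1) × ι) ℂ)
    (hG : ∀ v, coeff v G ≠ 0 → ∀ h, ∑ i, v (i, Sum.inr h) = p h)
    (hfr : fr (k + 3) g G = (m : ℂ) • rename (sh k) F) (U : Fin (k + 3) × (ι ⊕ η) →₀ ℕ)
    (hU : ∀ (i : Fin (k + 3)) (h : η),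
      U (i, Sum.inr h) = if (i : ℕ) = (g h : ℕ) then p h else 0) :
    (coeff U G ≠ 0 → ∀ j, U (0, Sum.inl j) = 0 ∧ U (Fin.succ 0, Sum.inl j) = 0) ∧
    ∀ w : Fin (k + 1) × ι →₀ ℕ, (∀ j, U (0, Sum.inl j) = 0) →
      (∀ j, U (Fin.succ 0, Sum.inl j) = 0) →
      (∀ i j, U (Fin.succ (Fin.succ i), Sum.inl j) = w (i, j)) →
      coeff U G = m * coeff w F := by
  have h1 := coeff_fr g p G hG U hU
  rw [hfr, coeff_smul, smul_eq_mul] at h1
  refine ⟨fun hne j => ?_, fun w h2 h3 h4 => ?_⟩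
  · rw [← h1] at hne
    obtain ⟨d, hd, -⟩ := coeff_rename_ne_zero _ _ _ (right_ne_zero_of_mul hne)
    refine ⟨?_, ?_⟩
    · rw [← lt_apply U 0 j, ← hd, Finsupp.mapDomain_of_notMem_range _ _ (sh_ne0 j)]
    · rw [← lt_apply U (Fin.succ 0) j, ← hd, Finsupp.mapDomain_of_notMem_range _ _ (sh_ne1 j)]
  · rw [← h1]
    congr 1
    have h5 : lt U = Finsupp.mapDomain (sh k) w := by
      ext ⟨i, j⟩
      rw [lt_apply]
      refine Fin.cases ?_ (fun i => Fin.cases ?_ (fun i => ?_) i) i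
      · rw [h2 j, Finsupp.mapDomain_of_notMem_range _ _ (sh_ne0 j)]
      · rw [h3 j, Finsupp.mapDomain_of_notMem_range _ _ (sh_ne1 j)]
      · rw [h4 i j]
        exact (Finsupp.mapDomain_apply sh_inj w (i, j)).symm
    rw [h5]
    exact coeff_rename_mapDomain _ sh_inj F w

/-- The lift of `BL.OneR` with two rows of heads and no labels. -/
lemma one_lift (hO : OneR) {ι η : Type} [Fintype ι] [Fintype η] (g : η → Fin 2) (r : η → ℕ)
    (tau : Fin (k + 1) → ℕ) (c : ι → ℕ) (h1 : ∀ l : Fin 2, ∑ h, (if g h = l then r h else 0) = tau 0)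
    (h2 : ∑ j, c j = ∑ i, tau i) :
    ∃ (m : ℕ) (Ψ : KK (k + 1) ι c tau →ₗ[ℂ] MvPolynomial (Fin (k + 3) × (ι ⊕ η)) ℂ), m ≠ 0 ∧
      (∀ F, Ψ F ∈ HW (k + 3) (ι ⊕ η) (ap 2 (fun _ => tau 0) tau)) ∧
      (∀ F w, coeff w (Ψ F) ≠ 0 → ∀ x, ∑ i, w (i, x) = Sum.elim c r x) ∧
      ∀ F, fr (k + 3) g (Ψ F) = (m : ℂ) • rename (sh k) (F : MvPolynomial (Fin (k + 1) × ι) ℂ) := by
  classical
  obtain ⟨m, Ψ, hm, hΨ1, hΨ2, hΨ3⟩ := hO k 2 ι η g c (fun _ => 0) r (fun _ => tau 0) tau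
    two_pos h2 (fun _ _ => le_rfl) (by rw [Finset.sum_const_zero, add_zero]) (fun l => by
      rw [Finset.sum_const_zero, add_zero, ← h1 l, Finset.sum_filter])
  refine ⟨m, Ψ, hm, hΨ1, fun F w hw x => ?_, fun F => ?_⟩
  · have h3 := hΨ2 F w hw x
    simp only [Finset.sum_const_zero, add_zero] at h3
    exact h3
  · have h3 := hΨ3 F
    have h4 : lab (k + 1) 2 (fun _ : Fin 2 × ι => 0) = 1 := by
      rw [lab]
      exact Finset.prod_eq_one fun q _ => pow_zero _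
    rw [h4, one_mul] at h3
    exact h3

end exps

end Vale.Agent.P181.H382.H605
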