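import Vale.Agent.P181.H382.H605.Low

set_option autoImplicit false

/-!
# P181, LL (L1): the lossless lift, the isolation of the heads
-/

open MvPolynomial

namespace Vale.Agent.P181.H382.H605

open Vale.Agent.P181.T4 (HW rowOp)
open Vale.Agent.P181.TL (KK)
open Vale.Agent.P181.TL.H248 (finiteDimensional_KK)
open Vale.Agent.P181.BL (fr ap OneR)
open Vale.Agent.P181.SZR5b (rc rc_inj rowOp_rename)
open Vale.Agent.P181.DU.H248 (split_equiv)

variable {k : ℕ} {ι η : Type} [Fintype ι] [Fintype η]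

/-- The base of the columns. -/
noncomputable def Bs (k : ℕ) (g : η → Fin 2) (e P : ℕ) (s : ι → ℕ) (r : η → ℕ) (c : ι → ℕ) :
    Fin (k + 3) × (ι ⊕ η) →₀ ℕ :=
  mk (Sum.elim (fun j => e - c j - s j) fun h => if g h = 0 then e - r h - P else 0)
    (Sum.elim s fun h => if g h = 0 then P else e - r h) fun _ _ => 0

/-- The marked exponent. -/
noncomputable def Ws (g : η → Fin 2) (e P : ℕ) (s : ι → ℕ) (c : ι → ℕ)
    (w : Fin (k + 1) × ι →₀ ℕ) : Fin (k + 3) × (ι ⊕ η) →₀ ℕ :=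
  mk (Sum.elim (fun j => e - c j - s j) fun h => if g h = 0 then e - P else 0)
    (Sum.elim s fun h => if g h = 0 then P else e) fun i => Sum.elim (fun j => w (i, j)) fun _ => 0

section values

variable (g : η → Fin 2) (e P : ℕ) (s : ι → ℕ) (r : η → ℕ) (c : ι → ℕ)
  (w : Fin (k + 1) × ι →₀ ℕ)

lemma Bs_0l (j : ι) : Bs k g e P s r c (0, Sum.inl j) = e - c j - s j := rfl

lemma Bs_0r (h : η) :
    Bs k g e P s r c (0, Sum.inr h) = if g h = 0 then e - r h - P else 0 := rfl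

lemma Bs_1l (j : ι) : Bs k g e P s r c (Fin.succ 0, Sum.inl j) = s j := rfl

lemma Bs_1r (h : η) :
    Bs k g e P s r c (Fin.succ 0, Sum.inr h) = if g h = 0 then P else e - r h := rfl

lemma Bs_t (i : Fin (k + 1)) (x : ι ⊕ η) : Bs k g e P s r c (i.succ.succ, x) = 0 := rfl

lemma Ws_0l (j : ι) : Ws g e P s c w (0, Sum.inl j) = e - c j - s j := rfl

lemma Ws_0r (h : η) : Ws g e P s c w (0, Sum.inr h) = if g h = 0 then e - P else 0 := rfl

lemma Ws_1l (j : ι) : Ws g e P s c w (Fin.succ 0, Sum.inl j) = s j := rfl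

lemma Ws_1r (h : η) : Ws g e P s c w (Fin.succ 0, Sum.inr h) = if g h = 0 then P else e := rfl

lemma Ws_tl (i : Fin (k + 1)) (j : ι) :
    Ws g e P s c w (i.succ.succ, (Sum.inl j : ι ⊕ η)) = w (i, j) := rfl

lemma Ws_tr (i : Fin (k + 1)) (h : η) : Ws g e P s c w (i.succ.succ, Sum.inr h) = 0 := rfl

end values

omit [Fintype η] in
lemma g_cases (g : η → Fin 2) (h : η) :
    (g h = 0 ∧ (g h : ℕ) = 0) ∨ (g h ≠ 0 ∧ (g h : ℕ) = 1) := by
  by_cases h0 : g h = 0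
  · left
    exact ⟨h0, by rw [h0]; rfl⟩
  · right
    refine ⟨h0, ?_⟩
    have h1 := (g h).2
    have h2 : (g h : ℕ) ≠ 0 := fun h3 => h0 (Fin.ext h3)
    omega

/-- The heads. -/
lemma heads {g : η → Fin 2} {r : η → ℕ}
    {U : Fin (k + 3) × (ι ⊕ η) →₀ ℕ}
    (h0 : ∀ h, U (0, Sum.inr h) = if g h = 0 then r h else 0)
    (h1 : ∀ h, U (Fin.succ 0, Sum.inr h) = if g h = 0 then 0 else r h)
    (ht : ∀ (i : Fin (k + 1)) h, U (i.succ.succ, Sum.inr h) = 0) (i : Fin (k + 3)) (h : η) :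
    U (i, Sum.inr h) = if (i : ℕ) = (g h : ℕ) then r h else 0 := by
  have hg := g_cases g h
  refine Fin.cases ?_ (fun i => Fin.cases ?_ (fun i => ?_) i) i
  · rw [h0]
    have e1 : ((0 : Fin (k + 3)) : ℕ) = 0 := rfl
    rw [e1]
    rcases hg with hg | hg
    · rw [if_pos hg.1, if_pos hg.2.symm]
    · rw [if_neg hg.1, if_neg (by omega)]
  · rw [h1]
    have e1 : ((Fin.succ 0 : Fin (k + 3)) : ℕ) = 1 := rfl
    rw [e1]
    rcases hg with hg | hg
    · rw [if_pos hg.1, if_neg (by omega)]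
    · rw [if_neg hg.1, if_pos hg.2.symm]
  · rw [ht, if_neg]
    rw [Fin.val_succ, Fin.val_succ]
    omega

/-- The value at the marked exponent. -/
lemma val (g : η → Fin 2) {e P : ℕ} {s : ι → ℕ} {r : η → ℕ} (h4 : ∀ h, P + r h < e)
    {c : ι → ℕ} (w : Fin (k + 1) × ι →₀ ℕ) {m : ℕ}
    {G : MvPolynomial (Fin (k + 3) × (ι ⊕ η)) ℂ} {F : MvPolynomial (Fin (k + 1) × ι) ℂ}
    (hcol : ∀ v, coeff v G ≠ 0 → ∀ x, ∑ i, v (i, x) = Sum.elim c r x)
    (hfr : fr (k + 3) g G = (m : ℂ) • rename (sh k) F) :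
    coeff (Ws g e P s c w) (G * monomial (Bs k g e P s r c) 1) = m * coeff w F := by
  have hle : Bs k g e P s r c ≤ Ws g e P s c w := by
    rintro ⟨i, x⟩
    refine Fin.cases ?_ (fun i => Fin.cases ?_ (fun i => ?_) i) i
    · rcases x with j | h
      · rw [Bs_0l, Ws_0l]
      · rw [Bs_0r, Ws_0r]
        split_ifs <;> omega
    · rcases x with j | h
      · rw [Bs_1l, Ws_1l]
      · rw [Bs_1r, Ws_1r]
        split_ifs <;> omega
    · rw [Bs_t]
      exact Nat.zero_le _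
  rw [coeff_mul_monomial', if_pos hle, mul_one]
  refine (coeff_lift g r m G F (fun v hv h => hcol v hv (Sum.inr h)) hfr _
    (heads (fun h => ?_) (fun h => ?_) (fun i h => ?_))).2 w (fun j => ?_)
    (fun j => ?_) (fun i j => ?_)
  · have := h4 h
    rw [Finsupp.tsub_apply, Ws_0r, Bs_0r]
    split_ifs <;> omega
  · have := h4 h
    rw [Finsupp.tsub_apply, Ws_1r, Bs_1r]
    split_ifs <;> omega
  · rw [Finsupp.tsub_apply, Ws_tr, Nat.zero_sub]
  · rw [Finsupp.tsub_apply, Ws_0l, Bs_0l, Nat.sub_self]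
  · rw [Finsupp.tsub_apply, Ws_1l, Bs_1l, Nat.sub_self]
  · rw [Finsupp.tsub_apply, Ws_tl, Bs_t, Nat.sub_zero]

/-- **The isolation.** -/
lemma iso (g : η → Fin 2) {e P : ℕ} {s : ι → ℕ} {r : η → ℕ} (h4 : ∀ h, P + r h < e) (h5 : P < e)
    {c c0 : ι → ℕ} (hc : ∀ j, c j + s j < P) (hc0 : ∀ j, c0 j + s j < P)
    (h6 : ∀ j j', s j = s j' → j ≠ j' → c j ≠ c0 j') (w : Fin (k + 1) × ι →₀ ℕ) {m : ℕ}
    {G : MvPolynomial (Fin (k + 3) × (ι ⊕ η)) ℂ} {F : MvPolynomial (Fin (k + 1) × ι) ℂ}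
    (hcol : ∀ v, coeff v G ≠ 0 → ∀ x, ∑ i, v (i, x) = Sum.elim c r x)
    (hfr : fr (k + 3) g G = (m : ℂ) • rename (sh k) F) (π : Equiv.Perm (ι ⊕ η))
    (hne : coeff (Ws g e P s c0 w)
      (rename (rc (k + 3) π) (G * monomial (Bs k g e P s r c) 1)) ≠ 0) :
    c = c0 ∧ pw π (Ws g e P s c0 w) = Ws g e P s c0 w := by
  rw [coeff_rc, coeff_mul_monomial'] at hne
  by_cases hle : Bs k g e P s r c ≤ pw π (Ws g e P s c0 w)
  swap
  · rw [if_neg hle] at hne
    exact absurd rfl hne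
  rw [if_pos hle, mul_one] at hne
  obtain ⟨U, hUd⟩ : ∃ U, U = pw π (Ws g e P s c0 w) - Bs k g e P s r c := ⟨_, rfl⟩
  rw [← hUd] at hne
  have hU : ∀ i x, Ws g e P s c0 w (i, π x) = U (i, x) + Bs k g e P s r c (i, x) := by
    intro i x
    have h1 := hle (i, x)
    rw [pw_apply] at h1
    rw [hUd, Finsupp.tsub_apply, pw_apply]
    omega
  have hcl : ∀ i j, U (i, Sum.inl j) ≤ c j := by
    intro i j
    have h1 := hcol U hne (Sum.inl j)
    rw [Sum.elim_inl] at h1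
    rw [← h1]
    exact Finset.single_le_sum (f := fun i => U (i, Sum.inl j)) (fun _ _ => Nat.zero_le _)
      (Finset.mem_univ i)
  have hcr : ∀ i h, U (i, Sum.inr h) ≤ r h := by
    intro i h
    have h1 := hcol U hne (Sum.inr h)
    rw [Sum.elim_inr] at h1
    rw [← h1]
    exact Finset.single_le_sum (f := fun i => U (i, Sum.inr h)) (fun _ _ => Nat.zero_le _)
      (Finset.mem_univ i)
  have hA : ∀ j, ∃ j', π (Sum.inl j) = Sum.inl j' := by
    intro j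
    rcases hx : π (Sum.inl j) with j' | h'
    · exact ⟨j', rfl⟩
    · exfalso
      have h1 := hU (Fin.succ 0) (Sum.inl j)
      rw [hx, Ws_1r, Bs_1l] at h1
      have h2 := hcl (Fin.succ 0) j
      have h3 := hc j
      split_ifs at h1 <;> omega
  have hB : ∀ h, ∃ h', π (Sum.inr h) = Sum.inr h' := by
    intro h
    rcases hx : π (Sum.inr h) with j' | h'
    · exfalso
      have h1 := hU (Fin.succ 0) (Sum.inr h)
      rw [hx, Ws_1l, Bs_1r] at h1
      have h2 := hc0 j'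
      have h3 := h4 h
      split_ifs at h1 <;> omega
    · exact ⟨h', rfl⟩
  obtain ⟨τ, ρ, hπ⟩ := split_equiv π hA hB
  have hτ : ∀ j, π (Sum.inl j) = Sum.inl (τ j) := fun j => hπ (Sum.inl j)
  have hρ : ∀ h, π (Sum.inr h) = Sum.inr (ρ h) := fun h => hπ (Sum.inr h)
  have hgρ : ∀ h, g (ρ h) = 0 ↔ g h = 0 := by
    intro h
    have h1 := hU (Fin.succ 0) (Sum.inr h)
    rw [hρ, Ws_1r, Bs_1r] at h1
    have h2 := hcr (Fin.succ 0) h
    have h3 := h4 h
    constructor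
    · intro h7
      by_contra h8
      rw [if_pos h7, if_neg h8] at h1
      omega
    · intro h7
      by_contra h8
      rw [if_neg h8, if_pos h7] at h1
      omega
  have hUr : ∀ (i : Fin (k + 3)) (h : η),
      U (i, Sum.inr h) = if (i : ℕ) = (g h : ℕ) then r h else 0 := by
    refine heads (fun h => ?_) (fun h => ?_) (fun i h => ?_)
    · have h1 := hU 0 (Sum.inr h)
      rw [hρ, Ws_0r, Bs_0r] at h1
      have h3 := h4 h
      by_cases h7 : g h = 0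
      · rw [if_pos ((hgρ h).2 h7), if_pos h7] at h1
        rw [if_pos h7]
        omega
      · rw [if_neg (fun h8 => h7 ((hgρ h).1 h8)), if_neg h7] at h1
        rw [if_neg h7]
        omega
    · have h1 := hU (Fin.succ 0) (Sum.inr h)
      rw [hρ, Ws_1r, Bs_1r] at h1
      have h3 := h4 h
      by_cases h7 : g h = 0
      · rw [if_pos ((hgρ h).2 h7), if_pos h7] at h1
        rw [if_pos h7]
        omega
      · rw [if_neg (fun h8 => h7 ((hgρ h).1 h8)), if_neg h7] at h1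
        rw [if_neg h7]
        omega
    · have h1 := hU i.succ.succ (Sum.inr h)
      rw [hρ, Ws_tr, Bs_t] at h1
      omega
  have hlift := (coeff_lift g r m G F (fun v hv h => hcol v hv (Sum.inr h)) hfr U hUr).1 hne
  have hs : ∀ j, s (τ j) = s j := by
    intro j
    have h1 := hU (Fin.succ 0) (Sum.inl j)
    rw [hτ, Ws_1l, Bs_1l, (hlift j).2, zero_add] at h1
    exact h1
  have hc' : ∀ j, c0 (τ j) = c j := by
    intro j
    have h1 := hU 0 (Sum.inl j)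
    rw [hτ, Ws_0l, Bs_0l, (hlift j).1, zero_add] at h1
    have h2 := hc0 (τ j)
    have h3 := hc j
    have h7 := hs j
    omega
  have hτid : ∀ j, τ j = j := by
    intro j
    by_contra h7
    exact h6 j (τ j) (hs j).symm (Ne.symm h7) (hc' j).symm
  refine ⟨funext fun j => ?_, ?_⟩
  · rw [← hc' j, hτid]
  · ext ⟨i, x⟩
    rw [pw_apply]
    rcases x with j | h
    · rw [hτ, hτid]
    · rw [hρ]
      refine Fin.cases ?_ (fun i => Fin.cases ?_ (fun i => ?_) i) i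
      · rw [Ws_0r, Ws_0r]
        simp only [hgρ]
      · rw [Ws_1r, Ws_1r]
        simp only [hgρ]
      · rw [Ws_tr, Ws_tr]

lemma dec (B : Fin (k + 3) × (ι ⊕ η) →₀ ℕ) {G : MvPolynomial (Fin (k + 3) × (ι ⊕ η)) ℂ}
    {v : Fin (k + 3) × (ι ⊕ η) →₀ ℕ} (hv : coeff v (G * monomial B 1) ≠ 0) :
    ∃ U, coeff U G ≠ 0 ∧ ∀ q, v q = U q + B q := by
  rw [coeff_mul_monomial'] at hv
  by_cases hle : B ≤ v
  · rw [if_pos hle, mul_one] at hv
    refine ⟨_, hv, fun q => ?_⟩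
    have := hle q
    rw [Finsupp.tsub_apply]
    omega
  · rw [if_neg hle] at hv
    exact absurd rfl hv

lemma colsB (g : η → Fin 2) {e P : ℕ} {s : ι → ℕ} {r : η → ℕ} (h4 : ∀ h, P + r h < e)
    (h5 : P < e) {c : ι → ℕ} (hc : ∀ j, c j + s j < P) (x : ι ⊕ η) :
    Sum.elim c r x + ∑ i, Bs k g e P s r c (i, x) = e := by
  rw [Fin.sum_univ_succ, Fin.sum_univ_succ, Finset.sum_eq_zero fun i _ => Bs_t g e P s r c i x]
  rcases x with j | h
  · rw [Sum.elim_inl, Bs_0l, Bs_1l]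
    have := hc j
    omega
  · rw [Sum.elim_inr, Bs_0r, Bs_1r]
    have := h4 h
    split_ifs <;> omega

lemma ap_t (tau : Fin (k + 1) → ℕ) (i : Fin (k + 1)) :
    ap 2 (fun _ => tau 0) tau i.succ.succ = tau i := by
  rw [ap, dif_neg]
  · congr 1
  · rw [Fin.val_succ, Fin.val_succ]
    omega

lemma ap_1 (tau : Fin (k + 1) → ℕ) : ap 2 (fun _ => tau 0) tau (Fin.succ 0) = tau 0 := by
  rw [ap, dif_pos]
  show 0 % (k + 2) + 1 < 2
  rw [Nat.zero_mod]
  omega

lemma row1 (g : η → Fin 2) {e P : ℕ} {s : ι → ℕ} {r : η → ℕ} {c : ι → ℕ} :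
    ∑ x, Bs k g e P s r c (Fin.succ 0, x) = ∑ j, s j + ∑ h, (if g h = 0 then P else e - r h) := by
  rw [Fintype.sum_sum_type]
  rfl

lemma rows (e j : ℕ) (tau : Fin (k + 1) → ℕ) (v : Fin (k + 3) × (ι ⊕ η) →₀ ℕ)
    (hb : ∀ x, ∑ i, v (i, x) = e) (h1 : ∑ x, v (Fin.succ 0, x) = j)
    (ht : ∀ i : Fin (k + 1), ∑ x, v (i.succ.succ, x) = tau i) (i : Fin (k + 3)) :
    ∑ x, v (i, x) = wj (e * (Fintype.card ι + Fintype.card η)) j tau i := by
  have h7 : ∑ i, ∑ x, v (i, x) = e * (Fintype.card ι + Fintype.card η) := by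
    rw [Finset.sum_comm, Finset.sum_congr rfl fun x _ => hb x, Finset.sum_const,
      Finset.card_univ, Fintype.card_sum, smul_eq_mul, mul_comm]
  rw [Fin.sum_univ_succ, Fin.sum_univ_succ, h1, Finset.sum_congr rfl fun i _ => ht i] at h7
  change _ + (_ + ∑ i, tau i) = _ at h7
  refine Fin.cases ?_ (fun i => Fin.cases ?_ (fun i => ?_) i) i
  · rw [wj, Fin.cons_zero]
    omega
  · rw [wj, Fin.cons_succ, Fin.cons_zero]
    exact h1
  · rw [wj, Fin.cons_succ, Fin.cons_succ]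
    exact ht i

lemma Bs_ge (g : η → Fin 2) {e P : ℕ} {s : ι → ℕ} {r : η → ℕ} {c : ι → ℕ} (i : Fin (k + 3))
    (hi : 2 ≤ (i : ℕ)) (x : ι ⊕ η) : Bs k g e P s r c (i, x) = 0 := by
  obtain ⟨i, h⟩ := i
  obtain ⟨j, rfl⟩ : ∃ j, i = j + 2 := ⟨i - 2, by simp only at hi; omega⟩
  exact Bs_t g e P s r c ⟨j, by omega⟩ x

open scoped Classical in
/-- The membership. -/
lemma mem_NN (g : η → Fin 2) {e P : ℕ} {s : ι → ℕ} {r : η → ℕ} (h4 : ∀ h, P + r h < e)
    (h5 : P < e) {c : ι → ℕ} (hc : ∀ j, c j + s j < P) {tau : Fin (k + 1) → ℕ}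
    {G : MvPolynomial (Fin (k + 3) × (ι ⊕ η)) ℂ}
    (hG : G ∈ HW (k + 3) (ι ⊕ η) (ap 2 (fun _ => tau 0) tau))
    (hcol : ∀ v, coeff v G ≠ 0 → ∀ x, ∑ i, v (i, x) = Sum.elim c r x) :
    ∑ π : Equiv.Perm (ι ⊕ η), rename (rc (k + 3) π) (G * monomial (Bs k g e P s r c) 1) ∈
      NN (k + 3) (ι ⊕ η) e (wj (e * (Fintype.card ι + Fintype.card η))
        (∑ j, s j + ∑ h, (if g h = 0 then P else e - r h) + tau 0) tau) := by
  have hb : ∀ v, coeff v (G * monomial (Bs k g e P s r c) 1) ≠ 0 → ∀ x, ∑ i, v (i, x) = e := by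
    intro v hv x
    obtain ⟨U, hU, hq⟩ := dec _ hv
    rw [Finset.sum_congr rfl fun i _ => hq (i, x), Finset.sum_add_distrib, hcol U hU x]
    exact colsB g h4 h5 hc x
  have h1' : ∀ v, coeff v (G * monomial (Bs k g e P s r c) 1) ≠ 0 →
      ∑ x, v (Fin.succ 0, x) =
        ∑ j, s j + ∑ h, (if g h = 0 then P else e - r h) + tau 0 := by
    intro v hv
    obtain ⟨U, hU, hq⟩ := dec _ hv
    have h7 := hG.1 U hU (Fin.succ 0)
    rw [ap_1] at h7
    rw [Finset.sum_congr rfl fun x _ => hq (Fin.succ 0, x), Finset.sum_add_distrib, h7, row1,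
      add_comm]
  have ht' : ∀ v, coeff v (G * monomial (Bs k g e P s r c) 1) ≠ 0 → ∀ i : Fin (k + 1),
      ∑ x, v (i.succ.succ, x) = tau i := by
    intro v hv i
    obtain ⟨U, hU, hq⟩ := dec _ hv
    have h7 := hG.1 U hU i.succ.succ
    rw [ap_t] at h7
    rw [Finset.sum_congr rfl fun x _ => hq (i.succ.succ, x), Finset.sum_add_distrib, h7,
      Finset.sum_eq_zero fun x _ => Bs_t g e P s r c i x, add_zero]
  exact sym_mem (fun v hv i => rows e _ tau v (hb v hv) (h1' v hv) (ht' v hv) i) hb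
    (fun s' i hsi hi => rowOp_base _ _ _ _ (hG.2 s' i hsi) (Bs_ge g i hi))

open scoped Classical in
/-- **(L1)** the lossless lift. -/
theorem lowN (hO : OneR) : LowN := by
  intro k e P ι η _ _ g s r tau KS h1 h2 h3 h4 h5 h6
  have hex : ∀ c : {c // c ∈ KS}, ∃ (m : ℕ)
      (Ψ : KK (k + 1) ι c.1 tau →ₗ[ℂ] MvPolynomial (Fin (k + 3) × (ι ⊕ η)) ℂ), m ≠ 0 ∧
      (∀ F, Ψ F ∈ HW (k + 3) (ι ⊕ η) (ap 2 (fun _ => tau 0) tau)) ∧
      (∀ F w, coeff w (Ψ F) ≠ 0 → ∀ x, ∑ i, w (i, x) = Sum.elim c.1 r x) ∧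
      ∀ F, fr (k + 3) g (Ψ F) =
        (m : ℂ) • rename (sh k) (F : MvPolynomial (Fin (k + 1) × ι) ℂ) :=
    fun c => one_lift hO g r tau c.1 h1 (h2 c.1 c.2)
  choose m Ψ hm hΨ1 hΨ2 hΨ3 using hex
  let W := (c : {c // c ∈ KS}) → KK (k + 1) ι c.1 tau
  let N := NN (k + 3) (ι ⊕ η) e (wj (e * (Fintype.card ι + Fintype.card η))
    (∑ j, s j + ∑ h, (if g h = 0 then P else e - r h) + tau 0) tau)
  have hN : FiniteDimensional ℂ N := finiteDimensional_NN _ _
  let LT : (c : {c // c ∈ KS}) → KK (k + 1) ι c.1 tau →ₗ[ℂ]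
      MvPolynomial (Fin (k + 3) × (ι ⊕ η)) ℂ := fun c =>
    ∑ π : Equiv.Perm (ι ⊕ η), (rename (R := ℂ) (rc (k + 3) π)).toLinearMap ∘ₗ
      (LinearMap.mulRight ℂ (monomial (Bs k g e P s r c.1) (1 : ℂ))) ∘ₗ Ψ c
  have hLT : ∀ c F, LT c F = ∑ π : Equiv.Perm (ι ⊕ η),
      rename (rc (k + 3) π) (Ψ c F * monomial (Bs k g e P s r c.1) 1) := by
    intro c F
    show (∑ π : Equiv.Perm (ι ⊕ η), (rename (R := ℂ) (rc (k + 3) π)).toLinearMap ∘ₗ
      (LinearMap.mulRight ℂ (monomial (Bs k g e P s r c.1) (1 : ℂ))) ∘ₗ Ψ c) F = _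
    rw [LinearMap.sum_apply]
    rfl
  have hmem : ∀ c F, LT c F ∈ N := by
    intro c F
    rw [hLT]
    exact mem_NN g h4 h5 (h3 c.1 c.2) (hΨ1 c F) (hΨ2 c F)
  let Λ : W →ₗ[ℂ] N := ∑ c : {c // c ∈ KS}, ((LT c).codRestrict N (hmem c)) ∘ₗ LinearMap.proj c
  have hΛ : ∀ x : W, ((Λ x : N) : MvPolynomial (Fin (k + 3) × (ι ⊕ η)) ℂ) =
      ∑ c : {c // c ∈ KS}, ∑ π : Equiv.Perm (ι ⊕ η),
        rename (rc (k + 3) π) (Ψ c (x c) * monomial (Bs k g e P s r c.1) 1) := by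
    intro x
    have h9 : Λ x = ∑ c : {c // c ∈ KS}, (((LT c).codRestrict N (hmem c)) ∘ₗ
      (LinearMap.proj c : W →ₗ[ℂ] KK (k + 1) ι c.1 tau)) x := LinearMap.sum_apply _ _ _
    rw [h9, Submodule.coe_sum]
    refine Finset.sum_congr rfl fun c _ => ?_
    rw [← hLT]
    rfl
  have hinj : Function.Injective Λ := by
    rw [← LinearMap.ker_eq_bot, LinearMap.ker_eq_bot']
    intro x hx
    have hx' := hΛ x
    rw [hx, Submodule.coe_zero] at hx'
    funext c0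
    apply Subtype.ext
    ext w
    rw [Pi.zero_apply, Submodule.coe_zero, coeff_zero]
    by_contra hw
    have h9 := congrArg (coeff (Ws g e P s c0.1 w)) hx'
    rw [coeff_zero, coeff_sum, Finset.sum_eq_single c0] at h9
    · rw [coeff_sum] at h9
      have hv : coeff (Ws g e P s c0.1 w) (Ψ c0 (x c0) * monomial (Bs k g e P s r c0.1) 1) =
          m c0 * coeff w (x c0 : MvPolynomial (Fin (k + 1) × ι) ℂ) :=
        val g h4 w (hΨ2 c0 (x c0)) (hΨ3 c0 (x c0))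
      have hne : (m c0 : ℂ) * coeff w (x c0 : MvPolynomial (Fin (k + 1) × ι) ℂ) ≠ 0 :=
        mul_ne_zero (Nat.cast_ne_zero.2 (hm c0)) hw
      have h10 : ∀ π : Equiv.Perm (ι ⊕ η), coeff (Ws g e P s c0.1 w)
          (rename (rc (k + 3) π) (Ψ c0 (x c0) * monomial (Bs k g e P s r c0.1) 1)) =
          if pw π (Ws g e P s c0.1 w) = Ws g e P s c0.1 w then
            (m c0 : ℂ) * coeff w (x c0 : MvPolynomial (Fin (k + 1) × ι) ℂ) else 0 := by
        intro π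
        split_ifs with h
        · rw [coeff_rc, h, hv]
        · by_contra h11
          exact h (iso g h4 h5 (h3 c0.1 c0.2) (h3 c0.1 c0.2) (h6 c0.1 c0.2 c0.1 c0.2) w
            (hΨ2 c0 (x c0)) (hΨ3 c0 (x c0)) π h11).2
      rw [Finset.sum_congr rfl fun π _ => h10 π, Finset.sum_ite, Finset.sum_const_zero, add_zero,
        Finset.sum_const, nsmul_eq_mul] at h9
      refine (mul_ne_zero ?_ hne) h9.symm
      rw [Nat.cast_ne_zero, ← Nat.pos_iff_ne_zero, Finset.card_pos]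
      refine ⟨1, Finset.mem_filter.2 ⟨Finset.mem_univ _, ?_⟩⟩
      ext ⟨i, x⟩
      rfl
    · intro c _ hcc
      rw [coeff_sum]
      refine Finset.sum_eq_zero fun π _ => ?_
      by_contra h
      exact hcc (Subtype.ext (iso g h4 h5 (h3 c.1 c.2) (h3 c0.1 c0.2) (h6 c.1 c.2 c0.1 c0.2) w
        (hΨ2 c (x c)) (hΨ3 c (x c)) π h).1)
    · intro h'
      exact absurd (Finset.mem_univ _) h'
  have hfr : Module.finrank ℂ W = ∑ c : {c // c ∈ KS}, Module.finrank ℂ (KK (k + 1) ι c.1 tau) :=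
    Module.finrank_pi_fintype ℂ
  have h9 := LinearMap.finrank_le_finrank_of_injective hinj
  rw [hfr, Finset.sum_coe_sort KS fun c => Module.finrank ℂ (KK (k + 1) ι c tau)] at h9
  exact h9

end Vale.Agent.P181.H382.H605
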